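import Vale.Agent.Results.P038.A_main
import Vale.Agent.Results.P038.B_threshold
import Vale.Agent.Results.P038.C_nocrux
import Vale.Agent.Results.P038.D_starforest

namespace Vale.Agent.Results.P038.AAA_union

open Vale.Agent.Lib.P038

/-- Let `r` be an oriented graph on a finite nonempty vertex type (the relation `r` is asymmetric).
If every vertex is joined by no arc to at most `k` other vertices, then some vertex `v` has
`|N1 v| ≤ |N2 v| + k * (k - 1)`. Some vertex `v` has `|N1 v| ≤ |N2 v|` in each of these cases: the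
missing graph has no alternating four-cycle (threshold graphs); the missing graph has no pattern
`f g`, `x₁ y`, `x₂ y` with `f x₁`, `f x₂`, `g y` joined by arcs; the missing graph is a disjoint union
of stars. -/
theorem result {V : Type*} [Fintype V] [DecidableEq V] [Nonempty V]
    (r : V → V → Prop) [DecidableRel r] (hasym : ∀ a b, r a b → ¬ r b a) :
    (∀ k : ℕ, (∀ v, (nonNbrs r v).card ≤ k) → ∃ v, (N1 r v).card ≤ (N2 r v).card + k * (k - 1)) ∧
    ((∀ a b c d : V, a ≠ b → ¬ r a b → ¬ r b a → c ≠ d → ¬ r c d → ¬ r d c →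
        (r a c ∨ r c a) → (r b d ∨ r d b) → False) →
      ∃ v, (N1 r v).card ≤ (N2 r v).card) ∧
    ((∀ f g x₁ x₂ y : V, x₁ ≠ x₂ →
        f ≠ g → ¬ r f g → ¬ r g f →
        x₁ ≠ y → ¬ r x₁ y → ¬ r y x₁ →
        x₂ ≠ y → ¬ r x₂ y → ¬ r y x₂ →
        (r f x₁ ∨ r x₁ f) → (r f x₂ ∨ r x₂ f) → (r g y ∨ r y g) → False) →
      ∃ v, (N1 r v).card ≤ (N2 r v).card) ∧
    ((∀ a b : V, a ≠ b → ¬ r a b → ¬ r b a →
        (∀ d, d ≠ a → ¬ r a d → ¬ r d a → d = b) ∨ (∀ d, d ≠ b → ¬ r b d → ¬ r d b → d = a)) →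
      ∃ v, (N1 r v).card ≤ (N2 r v).card) :=
  ⟨fun k hk => Vale.Agent.Results.P038.A_main.result r hasym k hk,
    Vale.Agent.Results.P038.B_threshold.result r hasym,
    Vale.Agent.Results.P038.C_nocrux.result r hasym,
    Vale.Agent.Results.P038.D_starforest.result r hasym⟩

end Vale.Agent.Results.P038.AAA_union
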